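import Vale.Agent.P153H.HB

/-! Consequences for conditional means and events. -/

open MeasureTheory Filter Topology Set

noncomputable section

namespace Vale.Agent.P153H

open Vale.Agent.P153

variable {P : Measure Cfg} [IsProbabilityMeasure P] {S : Finset (ℤ × ℤ)} {X : Cfg → ℝ}

theorem hc_one (h : Good P) (hX : Loc S X) (hS : ∀ x ∈ S, 0 ≤ x.2) {W : Cfg → ℝ}
    (hW : StronglyMeasurable[low] W) (hB : ∀ k, |W k| ≤ 1) :
    |∫ k, X k * W k ∂P| ≤ √(rb P X) := by
  have h1 := rp_low h hX hS hW (ae_of_all _ hB)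
  have h2 : ∫ k, W k ^ 2 ∂P ≤ 1 :=
    (integral_mono_of_nonneg (ae_of_all _ fun k => sq_nonneg (W k)) (integrable_const (1 : ℝ))
      (ae_of_all _ fun k => (sq_le_one_iff_abs_le_one _).2 (hB k))).trans_eq (by simp)
  have h3 : 0 ≤ rb P X := h.rp S X hX hS
  exact Real.abs_le_sqrt (h1.trans (mul_le_of_le_one_right h3 h2))

/-- `W = condExp low P X` is bounded, `∫ X W = ∫ W ^ 2` (`condExp_mul_of_stronglyMeasurable_left`,
`integral_condExp`), so `(∫ W ^ 2) ^ 2 ≤ rb * ∫ W ^ 2`; then `∫ |W| ≤ √(∫ W ^ 2)`. -/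
theorem cond_le (h : Good P) (hX : Loc S X) (hS : ∀ x ∈ S, 0 ≤ x.2) :
    ∫ k, |condExp low P X k| ∂P ≤ √(rb P X) := by
  have hi : Integrable X P := hX.int h.lip
  have hW : StronglyMeasurable[low] (condExp low P X) := stronglyMeasurable_condExp
  obtain ⟨s, hs⟩ : ∃ s : Cfg → ℝ, s = fun k => if 0 ≤ condExp low P X k then 1 else -1 := ⟨_, rfl⟩
  have hm : StronglyMeasurable[low] s := by
    rw [hs]
    exact StronglyMeasurable.ite (stronglyMeasurable_const.measurableSet_le hW)
      stronglyMeasurable_const stronglyMeasurable_const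
  have hb : ∀ k, |s k| ≤ 1 := fun k => by
    rw [hs]
    dsimp only
    split_ifs <;> simp
  have hi2 : Integrable (X * s) P :=
    hi.mul_bdd (hm.mono low_le).aestronglyMeasurable (ae_of_all _ hb)
  have e : ∫ k, |condExp low P X k| ∂P = ∫ k, X k * s k ∂P := by
    refine Eq.trans ?_ (integral_condExp (f := X * s) low_le)
    refine integral_congr_ae ?_
    filter_upwards [condExp_mul_of_stronglyMeasurable_right hm hi2 hi] with k hk
    rw [hk, Pi.mul_apply, hs]
    dsimp only
    split_ifs with h0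
    · rw [abs_of_nonneg h0, mul_one]
    · rw [abs_of_neg (not_le.1 h0), mul_neg, mul_one]
  rw [e]
  exact (le_abs_self _).trans (hc_one h hX hS hm hb)

/-- `rp_low` with the indicator of `A`. -/
theorem set_le (h : Good P) (hX : Loc S X) (hS : ∀ x ∈ S, 0 ≤ x.2) {A : Set Cfg}
    (hA : MeasurableSet[low] A) : |∫ k in A, X k ∂P| ≤ √(rb P X) := by
  have e : ∫ k in A, X k ∂P = ∫ k, X k * A.indicator (fun _ => (1 : ℝ)) k ∂P := by
    rw [← integral_indicator (low_le _ hA)]
    refine integral_congr_ae (ae_of_all _ fun k => ?_)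
    by_cases hk : k ∈ A <;> simp [hk]
  rw [e]
  refine hc_one h hX hS (stronglyMeasurable_const.indicator hA) fun k => ?_
  by_cases hk : k ∈ A <;> simp [hk]

/-- Real and imaginary parts: `set_le` for `cos Y - c` and `sin Y` (`Loc.comp`). -/
theorem exp_le (h : Good P) (hX : Loc S X) (hS : ∀ x ∈ S, 0 ≤ x.2) {A : Set Cfg}
    (hA : MeasurableSet[low] A) (c : ℝ) :
    ‖∫ k in A, Complex.exp (X k * Complex.I) ∂P - ((c * P.real A : ℝ) : ℂ)‖ ≤
      √(rb P fun k => Real.cos (X k) - c) + √(rb P fun k => Real.sin (X k)) := by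
  have h1 := set_le h (hX.comp fun t => Real.cos t - c) hS hA
  have h2 := set_le h (hX.comp Real.sin) hS hA
  have i1 : Integrable (fun k => Real.cos (X k)) (P.restrict A) :=
    ((hX.comp Real.cos).int h.lip).restrict
  have i2 : Integrable (fun k => Real.sin (X k)) (P.restrict A) :=
    ((hX.comp Real.sin).int h.lip).restrict
  have e : ∫ k in A, Complex.exp (X k * Complex.I) ∂P =
      ((∫ k in A, Real.cos (X k) ∂P : ℝ) : ℂ) + ((∫ k in A, Real.sin (X k) ∂P : ℝ) : ℂ) * Complex.I := by
    simp only [Complex.exp_mul_I, ← Complex.ofReal_cos, ← Complex.ofReal_sin]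
    rw [integral_add i1.ofReal (i2.ofReal.mul_const _), integral_mul_const, integral_complex_ofReal,
      integral_complex_ofReal]
  rw [integral_sub i1 (integrable_const c), setIntegral_const, smul_eq_mul, mul_comm] at h1
  rw [e]
  refine (Complex.norm_le_abs_re_add_abs_im _).trans (add_le_add ?_ ?_)
  · simpa using h1
  · simpa using h2

end Vale.Agent.P153H
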