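import Vale.Agent.P153H.HB
import Vale.Agent.P153.D3
import Vale.Agent.P153.C0b
import Vale.Agent.P153.C0t
import Vale.Agent.P153.T2
import Vale.Agent.P153.T1R
import Vale.Agent.P153.H3

/-! The reflection form of a Laplacian tends to zero. -/

open MeasureTheory Filter Topology Set

noncomputable section

namespace Vale.Agent.P153H

open Vale.Agent.P153

/-- Convergence of the characteristic function. -/
def Chi (P : Measure Cfg) (σ : ℝ) : Prop := ∀ f, Test f →
  Tendsto (fun δ => ∫ k, Real.cos (fld δ f k) ∂P) (𝓝[>] 0) (𝓝 (Real.exp (-(σ ^ 2 * cov f f / 2))))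

/-- `ft (cj f) ξ = ft f (conj ξ)` (`integral_conj'` or `Real.fourier_comp_linearIsometry`), then
`integral_conj'`. -/
theorem cov_cj (f g : ℂ → ℝ) : cov (cj f) (cj g) = cov f g := by
  have e : ∀ (f : ℂ → ℝ) ξ, ft (cj f) ξ = ft f ((starRingEnd ℂ) ξ) := fun f ξ =>
    Real.fourier_comp_linearIsometry Complex.conjLIE (fun z => (f z : ℂ)) ξ
  rw [cov, cov, ← integral_conj' fun ξ =>
    (ft f ξ * (starRingEnd ℂ) (ft g ξ)).re / (4 * Real.pi ^ 2 * ‖ξ‖ ^ 2)]
  simp only [e, Complex.norm_conj]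

variable {P : Measure Cfg} [IsProbabilityMeasure P] {σ : ℝ} {u : ℂ → ℝ}

/-- `cov_lap_disj`, `cj_up`, `tsupport_lap`. -/
theorem cov_mirror (hu : Cc u) (hs : tsupport u ⊆ {z | 0 < z.im}) :
    cov (lap u) (cj (lap u)) = 0 :=
  cov_lap_disj hu (c0b_cjt hu.test_lap) (disjoint_left.2 fun z h h' =>
    lt_asymm (a := 0) (b := z.im) (hs h) (cj_up ((tsupport_lap u hu.1).trans hs) h'))

/-- `fld_rfl0`, `CovT.lim`. -/
theorem rb_lin (hC : CovT P σ) (hu : Cc u) (hs : tsupport u ⊆ {z | 0 < z.im}) :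
    Tendsto (fun δ => rb P (fld δ (lap u))) (𝓝[>] 0) (𝓝 0) := by
  have h := hC.lim _ _ hu.test_lap (c0b_cjt hu.test_lap)
  rw [cov_mirror hu hs, mul_zero] at h
  simp only [rb, fld_rfl0]
  exact h

theorem hd_int {Y : Cfg → ℝ} (hY : Measurable Y) : Integrable (fun k => Real.cos (Y k)) P :=
  .of_bound (Real.continuous_cos.measurable.comp hY).aestronglyMeasurable 1
    (.of_forall fun _ => Real.abs_cos_le_one _)

theorem hd_pm (hχ : Chi P σ) (hu : Cc u) (hs : tsupport u ⊆ {z | 0 < z.im}) {s : ℝ}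
    (h1 : s ^ 2 = 1) : Tendsto (fun δ => ∫ k,
      Real.cos (fld δ (lap u) k + s * fld δ (cj (lap u)) k) ∂P) (𝓝[>] 0)
      (𝓝 (Real.exp (-(σ ^ 2 * cov (lap u) (lap u) / 2)) ^ 2)) := by
  have h := hχ _ (hu.test_lap.lin (c0b_cjt hu.test_lap) 1 s)
  rw [t2_sq hu.test_lap (c0b_cjt hu.test_lap), cov_mirror hu hs, cov_cj, h1] at h
  rw [← Real.exp_nat_mul]
  refine (h.congr' ?_).trans_eq (congrArg _ (congrArg _ (by push_cast; ring)))
  filter_upwards [self_mem_nhdsWithin] with δ hδ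
  exact integral_congr_ae (.of_forall fun k => congrArg Real.cos
    ((fld_lin hδ hu.test_lap (c0b_cjt hu.test_lap) 1 s k).trans (by rw [one_mul])))

theorem hd_pmi {δ : ℝ} (hδ : 0 < δ) (hu : Cc u) (s : ℝ) :
    Integrable (fun k => Real.cos (fld δ (lap u) k + s * fld δ (cj (lap u)) k)) P :=
  hd_int ((d3_meas hδ hu.test_lap).add ((d3_meas hδ (c0b_cjt hu.test_lap)).const_mul s))

/-- With `y = lap u`, `y' = cj y`, `a = fld y`, `b = fld y'`: `cos a cos b = (cos (a + b) + cos (a - b)) / 2`,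
`a ± b = fld (y ± y')` (`fld_lin`), `cov (y ± y') (y ± y') = 2 cov y y` (`cov_lin`, `cov_symm`,
`cov_cj`, `cov_mirror`); `Chi` for `y, y', y + y', y - y'`. All integrands are bounded and
measurable (`d3_meas`). -/
theorem rb_cos (hχ : Chi P σ) (hu : Cc u) (hs : tsupport u ⊆ {z | 0 < z.im}) :
    Tendsto (fun δ => rb P fun k => Real.cos (fld δ (lap u) k) -
      Real.exp (-(σ ^ 2 * cov (lap u) (lap u) / 2))) (𝓝[>] 0) (𝓝 0) := by
  have h1 := hχ _ hu.test_lap
  have h2 := hχ _ (c0b_cjt hu.test_lap)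
  have h3 := hd_pm hχ hu hs (one_pow 2)
  have h4 := hd_pm hχ hu hs neg_one_sq
  rw [cov_cj] at h2
  generalize Real.exp (-(σ ^ 2 * cov (lap u) (lap u) / 2)) = E at h1 h2 h3 h4 ⊢
  have h := ((((h3.add h4).const_mul (1 / 2)).sub ((h1.add h2).const_mul E)).add_const (E ^ 2))
  refine (h.congr' ?_).trans_eq (congrArg _ (by ring))
  filter_upwards [self_mem_nhdsWithin] with δ hδ
  have i1 := hd_int (P := P) (d3_meas hδ hu.test_lap)
  have i2 := hd_int (P := P) (d3_meas hδ (c0b_cjt hu.test_lap))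
  have i3 := hd_pmi (P := P) hδ hu 1
  have i4 := hd_pmi (P := P) hδ hu (-1)
  have e : E ^ 2 = ∫ _, E ^ 2 ∂P := by simp
  rw [← integral_add i3 i4, ← integral_add i1 i2, ← integral_const_mul, ← integral_const_mul,
    ← integral_sub ((i3.fun_add i4).const_mul _) ((i1.fun_add i2).const_mul _), e, ← integral_add
      (((i3.fun_add i4).const_mul _).sub' ((i1.fun_add i2).const_mul _)) (integrable_const _), rb]
  refine integral_congr_ae (.of_forall fun k => ?_)
  simp only [fld_rfl0, Real.cos_add, one_mul, neg_mul, Real.cos_neg, Real.sin_neg]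
  change _ = _ * (Real.cos (fld δ (cj (lap u)) k) - E)
  ring

theorem rb_sin (hχ : Chi P σ) (hu : Cc u) (hs : tsupport u ⊆ {z | 0 < z.im}) :
    Tendsto (fun δ => rb P fun k => Real.sin (fld δ (lap u) k)) (𝓝[>] 0) (𝓝 0) := by
  have h := ((hd_pm hχ hu hs neg_one_sq).sub (hd_pm hχ hu hs (one_pow 2))).const_mul (1 / 2)
  refine (h.congr' ?_).trans_eq (congrArg _ (by ring))
  filter_upwards [self_mem_nhdsWithin] with δ hδ
  rw [← integral_sub (hd_pmi hδ hu (-1)) (hd_pmi hδ hu 1), ← integral_const_mul, rb]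
  refine integral_congr_ae (.of_forall fun k => ?_)
  simp only [fld_rfl0, Real.cos_add, one_mul, neg_mul, Real.cos_neg, Real.sin_neg]
  change _ = _ * Real.sin (fld δ (cj (lap u)) k)
  ring

end Vale.Agent.P153H
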