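import Vale.Agent.P153H.Stmt
import Vale.Agent.P153.T2
import Vale.Agent.P153.T1R

/-! Cutting an odd function near the real line. -/

open MeasureTheory Filter Topology Set

noncomputable section

namespace Vale.Agent.P153H

open Vale.Agent.P153

/-- Zero below height `η`, one above height `2 η`. -/
def chi (η : ℝ) (z : ℂ) : ℝ := Real.smoothTransition (z.im / η - 1)

theorem chi_smooth (η : ℝ) : ContDiff ℝ (⊤ : ℕ∞) (chi η) :=
  Real.smoothTransition.contDiff.comp ((Complex.imCLM.contDiff.div_const η).sub contDiff_const)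

theorem he_zero {η : ℝ} (hη : 0 < η) {z : ℂ} (h : z.im ≤ η) : chi η z = 0 :=
  Real.smoothTransition.zero_of_nonpos (sub_nonpos.2 ((div_le_one hη).2 h))

theorem he_one {η : ℝ} (hη : 0 < η) {z : ℂ} (h : 2 * η ≤ z.im) : chi η z = 1 :=
  Real.smoothTransition.one_of_one_le (by linarith [(le_div_iff₀ hη).2 h])

theorem chi_supp {η : ℝ} (hη : 0 < η) : tsupport (chi η) ⊆ {z | 0 < z.im} := by
  refine (closure_minimal (t := {z : ℂ | η ≤ z.im}) (fun z hz => ?_)
    (isClosed_le continuous_const Complex.continuous_im)).trans fun z hz => hη.trans_le hz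
  exact le_of_not_gt fun h => hz (he_zero hη h.le)

theorem he_st : ∃ C : ℝ, 0 ≤ C ∧ ∀ x, |deriv Real.smoothTransition x| ≤ C := by
  have h1 : Continuous (deriv Real.smoothTransition) :=
    (Real.smoothTransition.contDiff (n := 1)).continuous_deriv le_rfl
  obtain ⟨C, hC⟩ := (isCompact_Icc (a := (0 : ℝ)) (b := 1)).exists_bound_of_continuousOn
    h1.continuousOn
  refine ⟨|C|, abs_nonneg _, fun x => ?_⟩
  rcases lt_or_ge x 0 with h | h
  · have e : Real.smoothTransition =ᶠ[𝓝 x] fun _ => 0 :=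
      (gt_mem_nhds h).mono fun y hy => Real.smoothTransition.zero_of_nonpos hy.le
    simp [e.deriv_eq]
  rcases lt_or_ge 1 x with h' | h'
  · have e : Real.smoothTransition =ᶠ[𝓝 x] fun _ => 1 :=
      (lt_mem_nhds h').mono fun y hy => Real.smoothTransition.one_of_one_le hy.le
    simp [e.deriv_eq]
  · exact (hC x ⟨h, h'⟩).trans (le_abs_self _)

/-- The derivative of `Real.smoothTransition` is continuous and vanishes outside `[0, 1]`. -/
theorem chi_deriv : ∃ C : ℝ, 0 ≤ C ∧ ∀ η : ℝ, 0 < η → ∀ z, ‖fderiv ℝ (chi η) z‖ ≤ C / η := by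
  obtain ⟨C, hC0, hC⟩ := he_st
  refine ⟨C, hC0, fun η hη z => ?_⟩
  have h1 : HasFDerivAt (fun z : ℂ => z.im / η - 1) (η⁻¹ • Complex.imCLM) z := by
    have := ((Complex.imCLM.hasFDerivAt (x := z)).const_smul η⁻¹).sub_const 1
    refine this.congr_of_eventuallyEq (Eventually.of_forall fun y => ?_)
    simp [div_eq_inv_mul]
  have h2 := (((Real.smoothTransition.contDiff (n := 1)).differentiable one_ne_zero
    (z.im / η - 1)).hasDerivAt).comp_hasFDerivAt z h1
  have h3 : fderiv ℝ (chi η) z =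
      deriv Real.smoothTransition (z.im / η - 1) • η⁻¹ • Complex.imCLM := h2.fderiv
  rw [h3, norm_smul, norm_smul, Complex.imCLM_norm, mul_one, Real.norm_of_nonneg (inv_pos.2 hη).le,
    div_eq_mul_inv C]
  exact mul_le_mul_of_nonneg_right (hC _) (inv_pos.2 hη).le

theorem he_sm (η : ℝ) :
    ContDiff ℝ (⊤ : ℕ∞) fun z => 1 - chi η z - chi η ((starRingEnd ℂ) z) :=
  (contDiff_const.sub (chi_smooth η)).sub ((chi_smooth η).comp Complex.conjCLE.contDiff)

theorem he_abs (η : ℝ) (z : ℂ) : |1 - chi η z - chi η ((starRingEnd ℂ) z)| ≤ 1 := by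
  have h1 : ∀ z, 0 ≤ chi η z := fun _ => Real.smoothTransition.nonneg _
  have h2 : ∀ z, chi η z ≤ 1 := fun _ => Real.smoothTransition.le_one _
  rw [abs_le]
  constructor <;> linarith [h1 z, h2 z, h1 ((starRingEnd ℂ) z), h2 ((starRingEnd ℂ) z)]

theorem he_der {C η : ℝ} (hC : ∀ z, ‖fderiv ℝ (chi η) z‖ ≤ C / η) (z : ℂ) :
    ‖fderiv ℝ (fun z => 1 - chi η z - chi η ((starRingEnd ℂ) z)) z‖ ≤ 2 * (C / η) := by
  have h1 := fun z => (t1_diff (chi_smooth η) z).hasFDerivAt
  have h2 : HasFDerivAt (fun z => chi η ((starRingEnd ℂ) z))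
      ((fderiv ℝ (chi η) ((starRingEnd ℂ) z)).comp (Complex.conjCLE : ℂ →L[ℝ] ℂ)) z :=
    (h1 _).comp z (Complex.conjCLE : ℂ →L[ℝ] ℂ).hasFDerivAt
  rw [(((h1 z).const_sub 1).fun_sub h2).fderiv]
  refine (norm_sub_le _ _).trans ?_
  have h3 := (fderiv ℝ (chi η) ((starRingEnd ℂ) z)).opNorm_comp_le (Complex.conjCLE : ℂ →L[ℝ] ℂ)
  rw [Complex.conjCLE_norm, mul_one] at h3
  rw [norm_neg]
  linarith [hC z, hC ((starRingEnd ℂ) z)]

theorem he_far {η : ℝ} (hη : 0 < η) {z : ℂ} (h : 2 * η < |z.im|) :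
    ∀ᶠ y in 𝓝 z, 1 - chi η y - chi η ((starRingEnd ℂ) y) = 0 := by
  filter_upwards [(isOpen_lt continuous_const Complex.continuous_im.abs).mem_nhds h] with y hy
  rcases lt_abs.1 hy with k | k
  · rw [he_one hη k.le, he_zero hη (by rw [Complex.conj_im]; linarith)]
    ring
  · rw [he_zero hη (by linarith), he_one hη (by rw [Complex.conj_im]; linarith)]
    ring

theorem he_vol {R η : ℝ} (hR : 0 ≤ R) (hη : 0 ≤ η) :
    volume (Complex.measurableEquivRealProd ⁻¹' (Icc (-R) R ×ˢ Icc (-(2 * η)) (2 * η))) =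
      ENNReal.ofReal (8 * R * η) := by
  rw [Complex.volume_preserving_equiv_real_prod.measure_preimage_equiv, Measure.volume_eq_prod,
    Measure.prod_prod, Real.volume_Icc, Real.volume_Icc, ← ENNReal.ofReal_mul (by linarith)]
  congr 1
  ring

/-- `w = (1 - chi z - chi (conj z)) u` vanishes on the open set `|im z| > 2 η` and outside a ball of
radius `R`. With `M` a bound for `‖fderiv u‖`, `|u z| ≤ M |im z|` since `u = 0` on the real line
(mean value inequality), so `‖fderiv w‖ ≤ M + 2 η M * 2 C / η`. By `cov_lap_le` the energy is at most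
`C' * volume (Icc (-R) R ×ℂ Icc (-2 η) (2 η)) = C' * 8 R η`
(`Complex.volume_preserving_equiv_real_prod`). -/
theorem cut_small {u : ℂ → ℝ} (hu : Cc u) (ho : ∀ z, u ((starRingEnd ℂ) z) = -u z) {ε : ℝ}
    (hε : 0 < ε) : ∃ η : ℝ, 0 < η ∧
      cov (lap fun z => (1 - chi η z - chi η ((starRingEnd ℂ) z)) * u z)
        (lap fun z => (1 - chi η z - chi η ((starRingEnd ℂ) z)) * u z) ≤ ε := by
  obtain ⟨C, hC0, hC⟩ := chi_deriv
  obtain ⟨M, hM⟩ := (hu.1.continuous_fderiv (by simp)).bounded_above_of_compact_support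
    (hu.2.fderiv ℝ)
  have hM0 : 0 ≤ M := (norm_nonneg _).trans (hM 0)
  obtain ⟨R, hR0, hR⟩ := hu.2.isCompact.isBounded.subset_closedBall_lt 0 0
  have h1 : ∀ z, |u z| ≤ M * |z.im| := fun z => by
    have a := ho (z.re : ℂ)
    rw [Complex.conj_ofReal] at a
    have b := convex_univ.norm_image_sub_le_of_norm_fderiv_le (fun x _ => t1_diff hu.1 x)
      (fun x _ => hM x) (mem_univ (z.re : ℂ)) (mem_univ z)
    have c : z - z.re = z.im * Complex.I := by
      linear_combination (Complex.re_add_im z).symm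
    rwa [show u z.re = 0 by linarith, sub_zero, c, norm_mul, Complex.norm_I, mul_one,
      Complex.norm_real] at b
  obtain ⟨K, hK⟩ : ∃ K, K = M + 4 * M * C := ⟨_, rfl⟩
  have hd : 0 < 16 * K ^ 2 * R + 1 := by positivity
  obtain ⟨η, hη, hηε⟩ : ∃ η, 0 < η ∧ 16 * K ^ 2 * R * η ≤ ε := by
    refine ⟨ε / (16 * K ^ 2 * R + 1), by positivity, ?_⟩
    rw [← mul_div_assoc, div_le_iff₀ hd]
    nlinarith
  refine ⟨η, hη, (cov_lap_le (hu.mul (he_sm η))).trans ?_⟩
  set S := Complex.measurableEquivRealProd ⁻¹' (Icc (-R) R ×ˢ Icc (-(2 * η)) (2 * η)) with hS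
  have mS : MeasurableSet S :=
    Complex.measurableEquivRealProd.measurable (measurableSet_Icc.prod measurableSet_Icc)
  have vS : volume S = ENNReal.ofReal (8 * R * η) := he_vol hR0.le hη.le
  have h2 : ∀ z, ‖fderiv ℝ (fun z => (1 - chi η z - chi η ((starRingEnd ℂ) z)) * u z) z‖ ^ 2 ≤
      S.indicator (fun _ => K ^ 2) z := fun z => by
    by_cases hz : z ∈ S
    · rw [indicator_of_mem hz, fderiv_fun_mul (t1_diff (he_sm η) z) (t1_diff hu.1 z)]
      refine pow_le_pow_left₀ (norm_nonneg _) ((norm_add_le _ _).trans ?_) 2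
      rw [norm_smul, norm_smul, Real.norm_eq_abs, Real.norm_eq_abs, hK]
      have a : |z.im| ≤ 2 * η := abs_le.2 hz.2
      refine add_le_add ((mul_le_mul (he_abs η z) (hM z) (norm_nonneg _) zero_le_one).trans_eq
        (one_mul M)) ((mul_le_mul ((h1 z).trans (mul_le_mul_of_nonneg_left a hM0))
          (he_der (hC η hη) z) (norm_nonneg _) (by positivity)).trans_eq ?_)
      field_simp
      ring
    · have e : (fun z => (1 - chi η z - chi η ((starRingEnd ℂ) z)) * u z) =ᶠ[𝓝 z] fun _ => 0 := by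
        by_cases a : 2 * η < |z.im|
        · exact (he_far hη a).mono fun y hy => by simp only [hy, zero_mul]
        · have b : z ∉ tsupport u := fun k => hz ⟨abs_le.1 ((Complex.abs_re_le_norm z).trans
            (mem_closedBall_zero_iff.1 (hR k))), abs_le.1 (not_lt.1 a)⟩
          exact (notMem_tsupport_iff_eventuallyEq.1 b).mono fun y hy => by simp [hy]
      rw [indicator_of_notMem hz, e.fderiv_eq]
      simp
  have h3 := integral_mono_of_nonneg (μ := volume) (Eventually.of_forall fun z => sq_nonneg _)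
    ((integrable_indicator_iff mS).2 (integrableOn_const (by rw [vS]; exact ENNReal.ofReal_ne_top)))
    (Eventually.of_forall h2)
  rw [integral_indicator_const _ mS, Measure.real, vS, ENNReal.toReal_ofReal (by positivity),
    smul_eq_mul] at h3
  linarith

end Vale.Agent.P153H
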