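import Vale.Agent.P153H.HG

/-! The characteristic function of the centred field on an event of the lower half plane. -/

open MeasureTheory Filter Topology Set

noncomputable section

namespace Vale.Agent.P153H

open Vale.Agent.P153

variable {P : Measure Cfg} [IsProbabilityMeasure P] {σ δ : ℝ} {f u : ℂ → ℝ}

theorem TestH.cc (hf : TestH f) : Cc f := ⟨hf.1, hf.2.1⟩

theorem cen_meas (h : Good P) (hδ : 0 < δ) (hf : Cc f) : Measurable (cen P δ f) :=
  (fld_int h hδ hf).1.sub (stronglyMeasurable_condExp.mono low_le).measurable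

theorem cen_int (h : Good P) (hδ : 0 < δ) (hf : Cc f) : Integrable (cen P δ f) P :=
  (fld_int h hδ hf).2.sub integrable_condExp

theorem hm_exp {a b : ℝ} (ha : 0 ≤ a) (hb : 0 ≤ b) : |Real.exp (-a) - Real.exp (-b)| ≤ |a - b| := by
  have k : ∀ x y : ℝ, 0 ≤ x → Real.exp (-x) - Real.exp (-y) ≤ |x - y| := fun x y hx => by
    have h1 : Real.exp (-x) ≤ 1 := Real.exp_le_one_iff.2 (by linarith)
    have h2 : Real.exp (-y) = Real.exp (-x) * Real.exp (x - y) := by
      rw [← Real.exp_add]; congr 1; ring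
    have h3 := Real.add_one_le_exp (x - y)
    have h4 := Real.exp_pos (-x)
    rw [h2]
    nlinarith [neg_abs_le (x - y), abs_nonneg (x - y)]
  rw [abs_le]
  constructor
  · have := k b a hb
    rw [abs_sub_comm] at this
    linarith
  · exact k a b ha

theorem hm_char {X Y : Cfg → ℝ} (mX : Measurable X) (mY : Measurable Y)
    (i : Integrable (fun k => X k - Y k) P) (A : Set Cfg) :
    ‖∫ k in A, Complex.exp (X k * Complex.I) ∂P - ∫ k in A, Complex.exp (Y k * Complex.I) ∂P‖ ≤
      ∫ k, |X k - Y k| ∂P := by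
  have hi : ∀ {Z : Cfg → ℝ}, Measurable Z →
      Integrable (fun k => Complex.exp (Z k * Complex.I)) (P.restrict A) := fun {Z} hZ =>
    Integrable.of_bound (Complex.measurable_exp.comp
      ((Complex.measurable_ofReal.comp hZ).mul_const _)).aestronglyMeasurable 1
      (Eventually.of_forall fun ω => (Complex.norm_exp_ofReal_mul_I _).le)
  rw [← integral_sub (hi mX) (hi mY)]
  refine le_trans (norm_integral_le_of_norm_le i.abs.integrableOn
    (Eventually.of_forall fun ω => ?_))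
    (setIntegral_le_integral i.abs (Eventually.of_forall fun _ => abs_nonneg _))
  have e : Complex.exp (X ω * Complex.I) - Complex.exp (Y ω * Complex.I) =
      Complex.exp (Y ω * Complex.I) * (Complex.exp (Complex.I * (X ω - Y ω : ℝ)) - 1) := by
    rw [mul_sub, ← Complex.exp_add, mul_one]
    congr 2
    push_cast
    ring
  rw [e, norm_mul, Complex.norm_exp_ofReal_mul_I, one_mul]
  exact Real.norm_exp_I_mul_ofReal_sub_one_le

theorem hm_cov {F G : ℂ → ℝ} (hF : Test F) (hG : Test G) {e : ℝ}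
    (he : cov (fun z => F z - G z) (fun z => F z - G z) ≤ e) :
    |cov G G - cov F F| ≤ 2 * (√(cov F F) * √e) + e := by
  have hr := hF.sub hG
  set r : ℂ → ℝ := fun z => F z - G z with hrd
  have eG : G = fun z => 1 * F z + (-1) * r z := by funext z; simp [hrd]
  have h1 : cov G G = cov F F - 2 * cov F r + cov r r := by
    have a1 : ∀ H, Test H → cov G H = cov F H - cov r H := fun H hH => by
      conv_lhs => rw [eG]
      rw [cov_lin hF hr hH]; ring
    rw [a1 G hG, cov_symm F G, cov_symm r G, a1 F hF, a1 r hr, cov_symm r F]; ring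
  have h2 := (cov_cs hF hr).trans
    (mul_le_mul_of_nonneg_left (Real.sqrt_le_sqrt he) (Real.sqrt_nonneg _))
  have h3 := cov_nonneg r
  rw [abs_le] at h2 ⊢
  constructor <;> linarith [h2.1, h2.2]

theorem half_scalar (h : Good P) (hC : CovT P σ) (hχ : Chi P σ) (hf : TestH f) {A : ℝ → Set Cfg}
    (hA : ∀ δ, MeasurableSet[low] (A δ)) :
    Tendsto (fun δ => ∫ k in A δ, Complex.exp (cen P δ f k * Complex.I) ∂P -
      ((Real.exp (-(σ ^ 2 * covH f f / 2)) * P.real (A δ) : ℝ) : ℂ)) (𝓝[>] 0) (𝓝 0) := by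
  refine Metric.tendsto_nhds.2 fun ε hε => ?_
  have hb : Tendsto (fun e : ℝ => σ ^ 2 / 4 * (2 * (√(cov (odd f) (odd f)) * √e) + e) +
      2 * √(σ ^ 2 * e + e)) (𝓝[>] 0) (𝓝 (σ ^ 2 / 4 * (2 * (√(cov (odd f) (odd f)) * √0) + 0) +
      2 * √(σ ^ 2 * 0 + 0))) :=
    (Continuous.tendsto (by fun_prop) 0).mono_left nhdsWithin_le_nhds
  simp only [Real.sqrt_zero, mul_zero, add_zero] at hb
  obtain ⟨e, he, e0⟩ := ((hb.eventually_lt_const (half_pos hε)).and self_mem_nhdsWithin).exists
  obtain ⟨u, hu, hs, hr⟩ := odd_dense hf e0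
  have ty := hu.test_lap
  have tr := hf.odd.sub (Test.odd' ty)
  have t1 := ((rb_lin hC hu hs).sqrt.add ((rb_cos hχ hu hs).sqrt.add (rb_sin hχ hu hs).sqrt))
  simp only [Real.sqrt_zero, add_zero] at t1
  have t2 := (hC.lim _ _ tr tr).eventually_lt_const (lt_add_of_le_of_pos
    (mul_le_mul_of_nonneg_left hr (sq_nonneg σ)) e0)
  have c1 : |Real.exp (-(σ ^ 2 * cov (lap u) (lap u) / 2)) - Real.exp (-(σ ^ 2 * covH f f / 2))| ≤
      σ ^ 2 / 4 * (2 * (√(cov (odd f) (odd f)) * √e) + e) := by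
    have n1 := cov_nonneg (lap u)
    have n2 := cov_nonneg (odd f)
    refine (hm_exp (by positivity) (by rw [covH]; positivity)).trans ?_
    rw [← covH_lap hu hs, covH, covH, show σ ^ 2 * (cov (odd (lap u)) (odd (lap u)) / 2) / 2 -
      σ ^ 2 * (cov (odd f) (odd f) / 2) / 2 =
        σ ^ 2 / 4 * (cov (odd (lap u)) (odd (lap u)) - cov (odd f) (odd f)) by ring, abs_mul,
      abs_of_nonneg (by positivity)]
    exact mul_le_mul_of_nonneg_left (hm_cov hf.odd (Test.odd' ty) hr) (by positivity)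
  filter_upwards [self_mem_nhdsWithin, t1.eventually_lt_const (half_pos hε), t2] with δ hδ h1 h2
  have hS : ∀ x ∈ (Wt δ (lap u)).support, 0 ≤ x.2 := fun x hx =>
    c0b_pos hδ ((tsupport_lap u hu.1).trans hs) (by
      rw [← Wt_apply hδ ty.2.1]; exact Finsupp.mem_support_iff.1 hx)
  have a1 := (hm_char (cen_meas h hδ hf.cc) (d3_meas hδ ty)
    ((cen_int h hδ hf.cc).sub (fld_int h hδ ty.cc).2) (A δ)).trans (cen_close h hδ hf hu hs)
  have a2 := exp_le h (fld_loc hδ ty) hS (hA δ) (Real.exp (-(σ ^ 2 * cov (lap u) (lap u) / 2)))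
  have a3 : ‖((Real.exp (-(σ ^ 2 * cov (lap u) (lap u) / 2)) * P.real (A δ) : ℝ) : ℂ) -
      ((Real.exp (-(σ ^ 2 * covH f f / 2)) * P.real (A δ) : ℝ) : ℂ)‖ ≤
      σ ^ 2 / 4 * (2 * (√(cov (odd f) (odd f)) * √e) + e) := by
    rw [← Complex.ofReal_sub, Complex.norm_real, Real.norm_eq_abs, ← sub_mul, abs_mul,
      abs_of_nonneg measureReal_nonneg]
    exact (mul_le_of_le_one_right (abs_nonneg _) measureReal_le_one).trans c1
  have a4 : √(∫ k, fld δ (fun z => odd f z - odd (lap u) z) k ^ 2 ∂P) ≤ √(σ ^ 2 * e + e) :=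
    Real.sqrt_le_sqrt (by simpa only [pow_two] using h2.le)
  rw [dist_zero_right, ← dist_eq_norm]
  rw [← dist_eq_norm] at a1 a2 a3
  refine (dist_triangle4 _ _ _ _).trans_lt ((add_le_add (add_le_add a1 a2) a3).trans_lt ?_)
  linarith

end Vale.Agent.P153H
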